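import Vale.Agent.P218UA.Defs
import Mathlib.Analysis.InnerProductSpace.Trace

/-! Local Gauss-Bonnet estimate: cross products and adapted frames. -/

open Set Filter Topology
open scoped RealInnerProductSpace

namespace Vale.Agent.P218UL

open Vale.Agent.P218UA (E3)

lemma inner3 (a b : E3) : ⟪a, b⟫ = a 0 * b 0 + a 1 * b 1 + a 2 * b 2 := by
  simp only [PiLp.inner_apply, Fin.sum_univ_three, RCLike.inner_apply, conj_trivial]
  ring

lemma normSq3 (a : E3) : ‖a‖ ^ 2 = a 0 ^ 2 + a 1 ^ 2 + a 2 ^ 2 := by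
  rw [← real_inner_self_eq_norm_sq, inner3]; ring

lemma ext3 {a b : E3} (h0 : a 0 = b 0) (h1 : a 1 = b 1) (h2 : a 2 = b 2) : a = b := by
  ext i; fin_cases i
  · exact h0
  · exact h1
  · exact h2

/-- the cross product -/
noncomputable def cr (a b : E3) : E3 :=
  !₂[a 1 * b 2 - a 2 * b 1, a 2 * b 0 - a 0 * b 2, a 0 * b 1 - a 1 * b 0]

@[simp] lemma cr0 (a b : E3) : cr a b 0 = a 1 * b 2 - a 2 * b 1 := rfl
@[simp] lemma cr1 (a b : E3) : cr a b 1 = a 2 * b 0 - a 0 * b 2 := rfl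
@[simp] lemma cr2 (a b : E3) : cr a b 2 = a 0 * b 1 - a 1 * b 0 := rfl

lemma cr_add_left (a a' b : E3) : cr (a + a') b = cr a b + cr a' b := by
  apply ext3 <;> simp <;> ring

lemma cr_add_right (a b b' : E3) : cr a (b + b') = cr a b + cr a b' := by
  apply ext3 <;> simp <;> ring

lemma cr_smul_left (c : ℝ) (a b : E3) : cr (c • a) b = c • cr a b := by
  apply ext3 <;> simp <;> ring

lemma cr_smul_right (c : ℝ) (a b : E3) : cr a (c • b) = c • cr a b := by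
  apply ext3 <;> simp <;> ring

lemma cr_sub_right (a b b' : E3) : cr a (b - b') = cr a b - cr a b' := by
  apply ext3 <;> simp <;> ring

lemma cr_self (a : E3) : cr a a = 0 := by
  apply ext3 <;> simp <;> ring

lemma cr_anti (a b : E3) : cr a b = -cr b a := by
  apply ext3 <;> simp <;> ring

lemma cr_zero_right (a : E3) : cr a 0 = 0 := by
  apply ext3 <;> simp

lemma inner_cr_left (a b : E3) : ⟪a, cr a b⟫ = 0 := by
  simp only [inner3, cr0, cr1, cr2]; ring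

lemma inner_cr_right (a b : E3) : ⟪b, cr a b⟫ = 0 := by
  simp only [inner3, cr0, cr1, cr2]; ring

lemma inner_cr_cyc (a b c : E3) : ⟪a, cr b c⟫ = ⟪b, cr c a⟫ := by
  simp only [inner3, cr0, cr1, cr2]; ring

lemma inner_cr_cr (a b c d : E3) :
    ⟪cr a b, cr c d⟫ = ⟪a, c⟫ * ⟪b, d⟫ - ⟪a, d⟫ * ⟪b, c⟫ := by
  simp only [inner3, cr0, cr1, cr2]; ring

lemma cr_cr (a b c : E3) : cr a (cr b c) = ⟪a, c⟫ • b - ⟪a, b⟫ • c := by
  apply ext3 <;> simp [inner3] <;> ring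

lemma normSq_cr (a b : E3) : ‖cr a b‖ ^ 2 = ‖a‖ ^ 2 * ‖b‖ ^ 2 - ⟪a, b⟫ ^ 2 := by
  simp only [normSq3, inner3, cr0, cr1, cr2]; ring

lemma norm_cr_le (a b : E3) : ‖cr a b‖ ≤ ‖a‖ * ‖b‖ := by
  refine abs_le_of_sq_le_sq' ?_ (by positivity) |>.2
  rw [normSq_cr, mul_pow]
  nlinarith [sq_nonneg ⟪a, b⟫]

/-- the cross product as a continuous bilinear map -/
noncomputable def crL : E3 →L[ℝ] E3 →L[ℝ] E3 :=
  LinearMap.mkContinuous₂ (LinearMap.mk₂ ℝ cr cr_add_left cr_smul_left cr_add_right cr_smul_right)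
    1 fun a b => by simpa using norm_cr_le a b

@[simp] lemma crL_apply (a b : E3) : crL a b = cr a b := rfl

lemma contDiff_cr {X : Type*} [NormedAddCommGroup X] [NormedSpace ℝ X] {n : WithTop ℕ∞}
    {f g : X → E3} (hf : ContDiff ℝ n f) (hg : ContDiff ℝ n g) :
    ContDiff ℝ n fun x => cr (f x) (g x) :=
  (crL.contDiff.comp hf).clm_apply hg

lemma continuous_cr {X : Type*} [TopologicalSpace X] {f g : X → E3} (hf : Continuous f)
    (hg : Continuous g) : Continuous fun x => cr (f x) (g x) :=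
  (crL.continuous.comp hf).clm_apply hg

lemma hasFDerivAt_cr {X : Type*} [NormedAddCommGroup X] [NormedSpace ℝ X] {f g : X → E3}
    {f' g' : X →L[ℝ] E3} {x : X} (hf : HasFDerivAt f f' x) (hg : HasFDerivAt g g' x) :
    HasFDerivAt (fun y => cr (f y) (g y))
      ((crL (f x)).comp g' + (crL.comp f').flip (g x)) x :=
  (crL.hasFDerivAt.comp x hf).clm_apply hg

lemma fderiv_cr {X : Type*} [NormedAddCommGroup X] [NormedSpace ℝ X] {f g : X → E3} {x : X}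
    (hf : DifferentiableAt ℝ f x) (hg : DifferentiableAt ℝ g x) (v : X) :
    fderiv ℝ (fun y => cr (f y) (g y)) x v
      = cr (fderiv ℝ f x v) (g x) + cr (f x) (fderiv ℝ g x v) := by
  rw [(hasFDerivAt_cr hf.hasFDerivAt hg.hasFDerivAt).fderiv]
  simp [add_comm]

/-- a positively oriented orthonormal frame `(e₁, e₂, n)` -/
structure Fr (n e₁ e₂ : E3) : Prop where
  n1 : ‖e₁‖ = 1
  n2 : ‖e₂‖ = 1
  o12 : ⟪e₁, e₂⟫ = 0
  eq : n = cr e₁ e₂

lemma fr_of_unit {n e : E3} (hn : ‖n‖ = 1) (he : ‖e‖ = 1) (h : ⟪n, e⟫ = 0) :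
    Fr n e (cr n e) := by
  refine ⟨he, ?_, inner_cr_right n e, ?_⟩
  · have := normSq_cr n e
    rw [hn, he, h] at this
    nlinarith [norm_nonneg (cr n e)]
  · rw [cr_cr, real_inner_self_eq_norm_sq, he, real_inner_comm, h]
    simp

lemma exists_fr {n : E3} (hn : ‖n‖ = 1) : ∃ e₁ e₂, Fr n e₁ e₂ := by
  have h : ∃ v : E3, v ≠ 0 ∧ ⟪n, v⟫ = 0 := by
    by_cases h0 : n 0 = 0
    · refine ⟨!₂[1, 0, 0], fun h => ?_, by simp [inner3, h0]⟩
      have := congrArg (fun v : E3 => v 0) h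
      simp at this
    · refine ⟨!₂[-n 1, n 0, 0], fun h => h0 ?_, by simp [inner3]; ring⟩
      have := congrArg (fun v : E3 => v 1) h
      simpa using this
  obtain ⟨v, hv, hnv⟩ := h
  have h1 : ‖v‖ ≠ 0 := norm_ne_zero_iff.2 hv
  refine ⟨_, _, fr_of_unit hn (e := ‖v‖⁻¹ • v) ?_ ?_⟩
  · rw [norm_smul, norm_inv, norm_norm, inv_mul_cancel₀ h1]
  · rw [inner_smul_right, hnv, mul_zero]

namespace Fr

variable {n e₁ e₂ : E3} (h : Fr n e₁ e₂)
include h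

lemma i11 : ⟪e₁, e₁⟫ = 1 := by rw [real_inner_self_eq_norm_sq, h.n1]; norm_num
lemma i22 : ⟪e₂, e₂⟫ = 1 := by rw [real_inner_self_eq_norm_sq, h.n2]; norm_num
lemma o21 : ⟪e₂, e₁⟫ = 0 := by rw [real_inner_comm, h.o12]
lemma o13 : ⟪e₁, n⟫ = 0 := by rw [h.eq, inner_cr_left]
lemma o23 : ⟪e₂, n⟫ = 0 := by rw [h.eq, inner_cr_right]
lemma o31 : ⟪n, e₁⟫ = 0 := by rw [real_inner_comm, h.o13]
lemma o32 : ⟪n, e₂⟫ = 0 := by rw [real_inner_comm, h.o23]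
lemma i33 : ⟪n, n⟫ = 1 := by
  rw [h.eq, inner_cr_cr, h.i11, h.i22, h.o12, h.o21]; norm_num
lemma n3 : ‖n‖ = 1 := by
  have := h.i33
  rw [real_inner_self_eq_norm_sq] at this
  nlinarith [norm_nonneg n]

lemma cr23 : cr e₂ n = e₁ := by
  rw [h.eq, cr_cr, h.i22, h.o21]; simp

lemma cr31 : cr n e₁ = e₂ := by
  rw [cr_anti, h.eq, cr_cr, h.i11, h.o12]; simp

lemma cr32 : cr n e₂ = -e₁ := by rw [cr_anti, h.cr23]

lemma c3 (a b : E3) : ⟪n, cr a b⟫ = ⟪e₁, a⟫ * ⟪e₂, b⟫ - ⟪e₁, b⟫ * ⟪e₂, a⟫ := by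
  rw [h.eq, inner_cr_cr]

lemma c1 (a b : E3) : ⟪e₁, cr a b⟫ = ⟪e₂, a⟫ * ⟪n, b⟫ - ⟪e₂, b⟫ * ⟪n, a⟫ := by
  rw [← inner_cr_cr, h.cr23]

lemma c2 (a b : E3) : ⟪e₂, cr a b⟫ = ⟪n, a⟫ * ⟪e₁, b⟫ - ⟪n, b⟫ * ⟪e₁, a⟫ := by
  rw [← inner_cr_cr, h.cr31]

lemma orthonormal : Orthonormal ℝ ![e₁, e₂, n] := by
  rw [orthonormal_iff_ite]
  intro i j
  fin_cases i <;> fin_cases j <;>
    simp [h.n1, h.n2, h.n3, h.o12, h.o21, h.o13, h.o23, h.o31, h.o32]

/-- the frame as an orthonormal basis -/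
noncomputable def basis : OrthonormalBasis (Fin 3) ℝ E3 :=
  (basisOfOrthonormalOfCardEqFinrank h.orthonormal (by simp)).toOrthonormalBasis
    (by simpa using h.orthonormal)

lemma basis_apply (i : Fin 3) : h.basis i = ![e₁, e₂, n] i := by
  simp [basis]

lemma inner_eq (a b : E3) :
    ⟪a, b⟫ = ⟪e₁, a⟫ * ⟪e₁, b⟫ + ⟪e₂, a⟫ * ⟪e₂, b⟫ + ⟪n, a⟫ * ⟪n, b⟫ := by
  rw [← h.basis.sum_inner_mul_inner a b, Fin.sum_univ_three]
  simp only [h.basis_apply, Matrix.cons_val_zero, Matrix.cons_val_one, Matrix.cons_val]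
  rw [real_inner_comm e₁ a, real_inner_comm e₂ a, real_inner_comm n a]

lemma expand (a : E3) : a = ⟪e₁, a⟫ • e₁ + ⟪e₂, a⟫ • e₂ + ⟪n, a⟫ • n := by
  conv_lhs => rw [← h.basis.sum_repr' a, Fin.sum_univ_three]
  simp only [h.basis_apply, Matrix.cons_val_zero, Matrix.cons_val_one, Matrix.cons_val]

lemma normSq (a : E3) : ‖a‖ ^ 2 = ⟪e₁, a⟫ ^ 2 + ⟪e₂, a⟫ ^ 2 + ⟪n, a⟫ ^ 2 := by
  rw [← real_inner_self_eq_norm_sq, h.inner_eq]; ring

lemma trace (B : E3 →L[ℝ] E3) :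
    LinearMap.trace ℝ E3 B.toLinearMap = ⟪e₁, B e₁⟫ + ⟪e₂, B e₂⟫ + ⟪n, B n⟫ := by
  rw [LinearMap.trace_eq_sum_inner _ h.basis, Fin.sum_univ_three]
  simp only [h.basis_apply, Matrix.cons_val_zero, Matrix.cons_val_one, Matrix.cons_val]
  rfl

end Fr

/-- the standard basis -/
noncomputable def bs (i : Fin 3) : E3 := EuclideanSpace.single i 1

lemma expand_bs (a : E3) : a = a 0 • bs 0 + a 1 • bs 1 + a 2 • bs 2 := by
  apply ext3 <;> simp [bs]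

lemma inner_bs (i : Fin 3) (a : E3) : ⟪bs i, a⟫ = a i := by
  simp [bs, EuclideanSpace.inner_single_left]

/-- the determinant of the tangential part of `B` on the plane orthogonal to `n` -/
noncomputable def d2 (n : E3) (B : E3 →L[ℝ] E3) : ℝ :=
  n 0 * ⟪n, cr (B (bs 1)) (B (bs 2))⟫ + n 1 * ⟪n, cr (B (bs 2)) (B (bs 0))⟫
    + n 2 * ⟪n, cr (B (bs 0)) (B (bs 1))⟫

lemma inner_cr_map (m a b : E3) (B : E3 →L[ℝ] E3) : ⟪m, cr (B a) (B b)⟫
    = cr a b 0 * ⟪m, cr (B (bs 1)) (B (bs 2))⟫ + cr a b 1 * ⟪m, cr (B (bs 2)) (B (bs 0))⟫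
      + cr a b 2 * ⟪m, cr (B (bs 0)) (B (bs 1))⟫ := by
  conv_lhs => rw [expand_bs a, expand_bs b]
  simp only [map_add, map_smul, inner3, cr0, cr1, cr2, PiLp.add_apply, PiLp.smul_apply,
    smul_eq_mul]
  ring

lemma Fr.d2_eq {n e₁ e₂ : E3} (h : Fr n e₁ e₂) (B : E3 →L[ℝ] E3) :
    d2 n B = ⟪e₁, B e₁⟫ * ⟪e₂, B e₂⟫ - ⟪e₁, B e₂⟫ * ⟪e₂, B e₁⟫ := by
  rw [← h.c3, inner_cr_map, ← h.eq, d2]

lemma continuous_d2 {X : Type*} [TopologicalSpace X] {n : X → E3} {B : X → E3 →L[ℝ] E3}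
    (hn : Continuous n) (hB : Continuous B) : Continuous fun x => d2 (n x) (B x) := by
  have h1 : ∀ i, Continuous fun x => B x (bs i) := fun i => hB.clm_apply continuous_const
  have h2 : ∀ i, Continuous fun x => n x i := fun i => by fun_prop
  unfold d2
  exact (((h2 0).mul (hn.inner (continuous_cr (h1 1) (h1 2)))).add
    ((h2 1).mul (hn.inner (continuous_cr (h1 2) (h1 0))))).add
    ((h2 2).mul (hn.inner (continuous_cr (h1 0) (h1 1))))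

end Vale.Agent.P218UL
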