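import Mathlib.Topology.Connected.Basic
import Mathlib.Topology.Instances.Real.Lemmas
import Mathlib.Topology.MetricSpace.Basic

/-! Local Gauss-Bonnet estimate: the purely topological interface (elder rule). -/

open Set Filter Topology

namespace Vale.Agent.P218UL

variable {X : Type*} [MetricSpace X]

/-- the part of `M` above the level `s` -/
def Up (M : Set X) (f : X → ℝ) (s : ℝ) : Set X := {x | x ∈ M ∧ s < f x}

/-- the level set -/
def Lev (M : Set X) (f : X → ℝ) (s : ℝ) : Set X := {x | x ∈ M ∧ f x = s}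

/-- the local structure of the superlevel sets of `f` on `M`: `Mx` is the set of the local maxima,
`Sd` the set of the saddles, `U₁ p`, `U₂ p` are the two upper sectors at the saddle `p` -/
structure LocUp (M : Set X) (f : X → ℝ) (Mx Sd : Finset X) (U₁ U₂ : X → Set X) : Prop where
  compact : IsCompact M
  cont : Continuous f
  locConn : ∀ p ∈ M, ∀ W ∈ 𝓝 p, ∃ N ∈ 𝓝 p, N ⊆ W ∧ IsPreconnected (N ∩ M)
  mx_mem : ∀ p ∈ Mx, p ∈ M
  sd_mem : ∀ p ∈ Sd, p ∈ M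
  inj_mx : InjOn f (Mx : Set X)
  inj_sd : InjOn f (Sd : Set X)
  simple : ∀ p ∈ M, p ∉ Sd → ∃ N ∈ 𝓝 p, IsPreconnected (N ∩ Up M f (f p))
  saddle : ∀ p ∈ Sd, ∃ N ∈ 𝓝 p, N ∩ Up M f (f p) = U₁ p ∪ U₂ p ∧ IsPreconnected (U₁ p) ∧
    IsPreconnected (U₂ p)
  clos : ∀ p ∈ M, p ∉ Mx → p ∈ closure (Up M f (f p))
  strict : ∀ p ∈ Mx, ∃ N ∈ 𝓝 p, ∀ x ∈ N, x ∈ M → x ≠ p → f x < f p

/-- `q` is a highest point of its component above the level `t` -/
def Elder (M : Set X) (f : X → ℝ) (t : ℝ) (q : X) : Prop :=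
  ∀ x ∈ connectedComponentIn (Up M f t) q, f x ≤ f q

/-- the two upper sectors at `p` belong to different components of the superlevel set -/
def Merge (M : Set X) (f : X → ℝ) (U₁ U₂ : X → Set X) (p : X) : Prop :=
  ∃ a ∈ U₁ p, ∃ b ∈ U₂ p, b ∉ connectedComponentIn (Up M f (f p)) a

/-- [T1] the Morse inequality above a level -/
def CountStmt (X : Type*) [MetricSpace X] : Prop :=
  ∀ (M : Set X) (f : X → ℝ) (Mx Mn Sd : Finset X) (U₁ U₂ D₁ D₂ : X → Set X),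
    LocUp M f Mx Sd U₁ U₂ → LocUp M (fun x => -f x) Mn Sd D₁ D₂ → IsPreconnected M →
    (∀ p ∈ Sd, ¬(Merge M f U₁ U₂ p ∧ Merge M (fun x => -f x) D₁ D₂ p)) →
    ∀ t : ℝ, (∀ p ∈ Sd, f p ≠ t) → (∀ p ∈ Mx, f p ≠ t) → (∃ x ∈ M, f x < t) →
    ∃ (F : Finset X) (q : X → X) (G : X → Set X),
      (Mx.filter fun p => t < f p).card + (Mn.filter fun p => t < f p).card
        ≤ (Sd.filter fun p => t < f p).card + F.card ∧
      (∀ i ∈ F, q i ∈ G i ∧ G i ⊆ Lev M f t ∧ IsClosed (G i) ∧ IsClosed (Lev M f t \ G i)) ∧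
      (F : Set X).PairwiseDisjoint G

/-- [T2] the piece of the critical level set between the sectors `U₁` and `D₁` -/
def PieceStmt (X : Type*) [MetricSpace X] : Prop :=
  ∀ (M : Set X) (f : X → ℝ) (Mx Mn Sd : Finset X) (U₁ U₂ D₁ D₂ : X → Set X),
    LocUp M f Mx Sd U₁ U₂ → LocUp M (fun x => -f x) Mn Sd D₁ D₂ → ∀ p ∈ Sd,
    (∀ x ∈ Mx, f x ≠ f p) → (∀ x ∈ Mn, f x ≠ f p) →
    Merge M f U₁ U₂ p → Merge M (fun x => -f x) D₁ D₂ p →
    ∃ G ⊆ Lev M f (f p) \ {p}, IsClosed (insert p G) ∧ IsClosed (Lev M f (f p) \ G) ∧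
      ∀ x ∈ Lev M f (f p), x ≠ p →
        (x ∈ closure (U₁ p) → x ∈ closure (D₁ p) → x ∈ G) ∧
        (x ∈ closure (U₂ p) ∨ x ∈ closure (D₂ p) → x ∉ G)

end Vale.Agent.P218UL
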